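import Mathlib
import Vale.Agent.Lib.P084F.MainAll

universe u v

/-- **Tingley's problem for finite-dimensional spaces.**
Every finite-dimensional real normed space `X` has the Mazur-Ulam property: for every real normed
space `Y`, every surjective isometry from the unit sphere of `X` onto the unit sphere of `Y` is
the restriction of a linear isometry of `X` onto `Y`. -/
theorem Vale.Agent.Results.P084.AllFiniteDim.result
    {X : Type u} [NormedAddCommGroup X] [NormedSpace ℝ X] [FiniteDimensional ℝ X]
    {Y : Type v} [NormedAddCommGroup Y] [NormedSpace ℝ Y]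
    (f : Metric.sphere (0 : X) 1 → Metric.sphere (0 : Y) 1)
    (hsurj : Function.Surjective f)
    (hf : ∀ x y : Metric.sphere (0 : X) 1, ‖(f x : Y) - (f y : Y)‖ = ‖(x : X) - (y : X)‖) :
    ∃ T : X ≃ₗᵢ[ℝ] Y, ∀ x : Metric.sphere (0 : X) 1, T (x : X) = (f x : Y) := by
  refine Vale.Agent.P084.main_all_finite f ?_ hsurj
  apply Isometry.of_dist_eq
  intro x y
  rw [Subtype.dist_eq, Subtype.dist_eq, dist_eq_norm, dist_eq_norm]
  exact hf x y
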