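import Mathlib
import Vale.Agent.Lib.P084G.MainNS
import Vale.Agent.Lib.P084F.MainAll

universe u v

/-- A real normed space is uniformly smooth if `‖p + t v‖ + ‖p - t v‖ - 2 = o(t)` uniformly in all
unit vectors `p, v`. -/
def Vale.Agent.Results.P084.NotUniformlySmooth.IsUniformlySmooth
    (X : Type*) [NormedAddCommGroup X] [NormedSpace ℝ X] : Prop :=
  ∀ ε : ℝ, 0 < ε → ∃ δ : ℝ, 0 < δ ∧ ∀ p v : X, ‖p‖ = 1 → ‖v‖ = 1 → ∀ t : ℝ, 0 < t → t ≤ δ →
    ‖p + t • v‖ + ‖p - t • v‖ ≤ 2 + ε * t

open Vale.Agent.Results.P084.NotUniformlySmooth in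
/-- **Tingley's problem outside the class of uniformly smooth spaces.**
Let `X, Y` be real Banach spaces.  If `X` is finite-dimensional, or `X` is not uniformly smooth, or
`Y` is not uniformly smooth, then every surjective isometry from the unit sphere of `X` onto the
unit sphere of `Y` is the restriction of a linear isometry of `X` onto `Y`. -/
theorem Vale.Agent.Results.P084.NotUniformlySmooth.result
    {X : Type u} [NormedAddCommGroup X] [NormedSpace ℝ X] [CompleteSpace X]
    {Y : Type v} [NormedAddCommGroup Y] [NormedSpace ℝ Y] [CompleteSpace Y]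
    (h : FiniteDimensional ℝ X ∨ ¬ IsUniformlySmooth X ∨ ¬ IsUniformlySmooth Y)
    (f : Metric.sphere (0 : X) 1 → Metric.sphere (0 : Y) 1)
    (hsurj : Function.Surjective f)
    (hf : ∀ x y : Metric.sphere (0 : X) 1, ‖(f x : Y) - (f y : Y)‖ = ‖(x : X) - (y : X)‖) :
    ∃ T : X ≃ₗᵢ[ℝ] Y, ∀ x : Metric.sphere (0 : X) 1, T (x : X) = (f x : Y) := by
  have hiso : Isometry f := by
    apply Isometry.of_dist_eq
    intro x y
    rw [Subtype.dist_eq, Subtype.dist_eq, dist_eq_norm, dist_eq_norm]
    exact hf x y
  rcases h with h | h | h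
  · exact Vale.Agent.P084.main_all_finite f hiso hsurj
  · exact Vale.Agent.P084G.main_ns_sphere h f hiso hsurj
  · -- apply the theorem to the inverse map
    have hinj : Function.Injective f := hiso.injective
    let e : Metric.sphere (0 : X) 1 ≃ Metric.sphere (0 : Y) 1 := Equiv.ofBijective f ⟨hinj, hsurj⟩
    have he : ∀ x, e x = f x := fun _ => rfl
    have hgiso : Isometry e.symm := by
      apply Isometry.of_dist_eq
      intro x y
      have := hiso.dist_eq (e.symm x) (e.symm y)
      rw [← he, ← he, Equiv.apply_symm_apply, Equiv.apply_symm_apply] at this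
      exact this.symm
    obtain ⟨T, hT⟩ := Vale.Agent.P084G.main_ns_sphere h (fun y => e.symm y) hgiso e.symm.surjective
    refine ⟨T.symm, fun x => ?_⟩
    have h1 := hT (f x)
    have h2 : e.symm (f x) = x := by rw [← he, Equiv.symm_apply_apply]
    rw [h2] at h1
    rw [← h1, LinearIsometryEquiv.symm_apply_apply]
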