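import Mathlib
import Vale.Agent.Lib.P084G.II.Final

universe u v

/-- **Tingley's problem (1987).**
Let `X, Y` be real Banach spaces.  Every surjective isometry `f` from the unit sphere of `X` onto
the unit sphere of `Y` is the restriction of a (surjective) linear isometry of `X` onto `Y`.
In other words, every real Banach space has the Mazur-Ulam property. -/
theorem Vale.Agent.Results.P084.TingleyProblem.result
    {X : Type u} [NormedAddCommGroup X] [NormedSpace ℝ X] [CompleteSpace X]
    {Y : Type v} [NormedAddCommGroup Y] [NormedSpace ℝ Y] [CompleteSpace Y]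
    (f : Metric.sphere (0 : X) 1 → Metric.sphere (0 : Y) 1)
    (hsurj : Function.Surjective f)
    (hf : ∀ x y : Metric.sphere (0 : X) 1, ‖(f x : Y) - (f y : Y)‖ = ‖(x : X) - (y : X)‖) :
    ∃ T : X ≃ₗᵢ[ℝ] Y, ∀ x : Metric.sphere (0 : X) 1, T (x : X) = (f x : Y) := by
  refine P084GII.main_final f ?_ hsurj
  apply Isometry.of_dist_eq
  intro x y
  rw [Subtype.dist_eq, Subtype.dist_eq, dist_eq_norm, dist_eq_norm]
  exact hf x y
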