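import Mathlib
import Vale.Agent.Lib.P084G.II.Final

/-!
# P084: every real Banach space has the Mazur-Ulam property
-/

universe u v

namespace Vale.Agent.Results.P084.TingleyProblemMU

/-- The unit sphere `S_X`: the type of the vectors of norm one of `X`; as a subtype of `X` it
carries the metric `‖x - y‖` inherited from `X`. -/
abbrev UnitVectors (X : Type u) [NormedAddCommGroup X] : Type u := {x : X // ‖x‖ = 1}

/-- `f : S_X → S_Y` is a surjective isometry: it is onto and preserves the distances. -/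
def IsSurjectiveIsometry {X : Type u} [NormedAddCommGroup X] {Y : Type v} [NormedAddCommGroup Y]
    (f : UnitVectors X → UnitVectors Y) : Prop :=
  (∀ y, ∃ x, f x = y) ∧ ∀ x x', dist (f x) (f x') = dist x x'

/-- `f : S_X → S_Y` extends linearly: there is a real-linear map `T` of `X` onto `Y`, which is an
isometry and satisfies `T x = f x` for all `x` in `S_X`. -/
def ExtendsLinearly {X : Type u} [NormedAddCommGroup X] [NormedSpace ℝ X]
    {Y : Type v} [NormedAddCommGroup Y] [NormedSpace ℝ Y]
    (f : UnitVectors X → UnitVectors Y) : Prop :=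
  ∃ T : X →ₗ[ℝ] Y, Isometry T ∧ LinearMap.range T = ⊤ ∧ ∀ x : UnitVectors X, T x.1 = (f x).1

/-- The Mazur-Ulam property of a real normed space `X` (Cheng-Dong 2010): for every real Banach
space `Y`, every surjective isometry `S_X → S_Y` extends linearly. -/
def HasMazurUlamProperty (X : Type u) [NormedAddCommGroup X] [NormedSpace ℝ X] : Prop :=
  ∀ (Y : Type v) [NormedAddCommGroup Y] [NormedSpace ℝ Y] [CompleteSpace Y]
    (f : UnitVectors X → UnitVectors Y), IsSurjectiveIsometry f → ExtendsLinearly f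

end Vale.Agent.Results.P084.TingleyProblemMU

open Vale.Agent.Results.P084.TingleyProblemMU in
/-- **Tingley's problem.** Every real Banach space has the Mazur-Ulam property. -/
theorem Vale.Agent.Results.P084.TingleyProblemMU.result
    (X : Type u) [NormedAddCommGroup X] [NormedSpace ℝ X] [CompleteSpace X] :
    HasMazurUlamProperty.{u, v} X := by
  intro Y _ _ _ f hf
  have hmemX : ∀ x : Metric.sphere (0 : X) 1, ‖(x : X)‖ = 1 := fun x =>
    mem_sphere_zero_iff_norm.1 x.2
  have hmemY : ∀ y : UnitVectors Y, (y : Y) ∈ Metric.sphere (0 : Y) 1 := fun y =>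
    mem_sphere_zero_iff_norm.2 y.2
  let g : Metric.sphere (0 : X) 1 → Metric.sphere (0 : Y) 1 :=
    fun x => ⟨f ⟨x, hmemX x⟩, hmemY _⟩
  have hg : Isometry g := Isometry.of_dist_eq fun x x' => hf.2 ⟨x, hmemX x⟩ ⟨x', hmemX x'⟩
  have hs : Function.Surjective g := by
    intro y
    obtain ⟨x, hx⟩ := hf.1 ⟨y, mem_sphere_zero_iff_norm.1 y.2⟩
    refine ⟨⟨x, mem_sphere_zero_iff_norm.2 x.2⟩, Subtype.ext ?_⟩
    exact congrArg (fun z : UnitVectors Y => (z : Y)) hx
  obtain ⟨T, hT⟩ := P084GII.main_final g hg hs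
  refine ⟨(T.toLinearEquiv : X →ₗ[ℝ] Y), T.isometry, ?_, fun x => ?_⟩
  · rw [LinearMap.range_eq_top]
    exact T.surjective
  · exact hT ⟨x, mem_sphere_zero_iff_norm.2 x.2⟩
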